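import Vale.Agent.Helper22.MahlerJoin

/-!
P248 (Mahler conjectures on the volume product): the volume product of the join of two bodies.

For `K ⊆ ℝ^n` and `L ⊆ ℝ^m` the join is `J = {((1 - t) x, t y, t) : x ∈ K, y ∈ L, 0 ≤ t ≤ 1}`
in `ℝ^(n+m+1)` (for `m = 0` it is the pyramid over `K`).  With
`P(K) = inf over interior points w of |K| |(K - w)°|`,

`P(J) = (n! m! / (n+m+1)!)^2 (n+m+2)^(n+m+2) / ((n+1)^(n+1) (m+1)^(m+1)) · P(K) · P(L)`.

Consequently, if `K` and `L` satisfy the general Mahler inequality `P ≥ (d+1)^(d+1) / (d!)^2` in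
their dimensions, then so does `J`, with equality for `J` exactly when equality holds for both.
All definitions are written out in the statement.
-/

namespace Vale.Agent.Results.P248.JoinFormula

open MeasureTheory Vale.Agent.Helper22

theorem result :
    ∀ (n m : ℕ) (K : Set (Fin n → ℝ)) (L : Set (Fin m → ℝ)),
      MeasurableSet K → Bornology.IsBounded K → (interior K).Nonempty →
      MeasurableSet L → Bornology.IsBounded L → (interior L).Nonempty →
      ∀ J : Set ((Fin n ⊕ Fin m) ⊕ Unit → ℝ),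
        J = {z | 0 ≤ z (Sum.inr ()) ∧ z (Sum.inr ()) ≤ 1 ∧
          (∃ x ∈ K, ∀ i, z (Sum.inl (Sum.inl i)) = (1 - z (Sum.inr ())) * x i) ∧
          (∃ y ∈ L, ∀ j, z (Sum.inl (Sum.inr j)) = z (Sum.inr ()) * y j)} →
      ∀ PK PL PJ : ℝ,
        PK = sInf ((fun w => (volume K).toReal *
          (volume {y : Fin n → ℝ | ∀ x ∈ K, ∑ i, y i * (x i - w i) ≤ 1}).toReal) ''
            interior K) →
        PL = sInf ((fun w => (volume L).toReal *
          (volume {y : Fin m → ℝ | ∀ x ∈ L, ∑ i, y i * (x i - w i) ≤ 1}).toReal) ''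
            interior L) →
        PJ = sInf ((fun w => (volume J).toReal *
          (volume {y : (Fin n ⊕ Fin m) ⊕ Unit → ℝ | ∀ x ∈ J, ∑ i, y i * (x i - w i) ≤ 1}).toReal) ''
            interior J) →
        PJ = ((n.factorial : ℝ) * m.factorial / ((n + m + 1).factorial : ℝ)) ^ 2 *
            (((n : ℝ) + m + 2) ^ (n + m + 2) / (((n : ℝ) + 1) ^ (n + 1) * ((m : ℝ) + 1) ^ (m + 1)))
            * (PK * PL) ∧
        (((n : ℝ) + 1) ^ (n + 1) / (n.factorial : ℝ) ^ 2 ≤ PK →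
          ((m : ℝ) + 1) ^ (m + 1) / (m.factorial : ℝ) ^ 2 ≤ PL →
          ((n : ℝ) + m + 2) ^ (n + m + 2) / ((n + m + 1).factorial : ℝ) ^ 2 ≤ PJ ∧
          (PJ = ((n : ℝ) + m + 2) ^ (n + m + 2) / ((n + m + 1).factorial : ℝ) ^ 2 ↔
            PK = ((n : ℝ) + 1) ^ (n + 1) / (n.factorial : ℝ) ^ 2 ∧
            PL = ((m : ℝ) + 1) ^ (m + 1) / (m.factorial : ℝ) ^ 2)) := by
  intro n m K L hK _ hKne hL _ hLne J hJ PK PL PJ hPK hPL hPJ
  have h := volProd_join (ι := Fin n) (κ := Fin m) hK hL hKne hLne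
  rw [Fintype.card_fin, Fintype.card_fin] at h
  have hmain : PJ = ((n.factorial : ℝ) * m.factorial / ((n + m + 1).factorial : ℝ)) ^ 2 *
      (((n : ℝ) + m + 2) ^ (n + m + 2) / (((n : ℝ) + 1) ^ (n + 1) * ((m : ℝ) + 1) ^ (m + 1)))
      * (PK * PL) := by
    subst hJ hPK hPL hPJ
    exact h
  refine ⟨hmain, fun h1 h2 => ?_⟩
  set c : ℝ := ((n.factorial : ℝ) * m.factorial / ((n + m + 1).factorial : ℝ)) ^ 2 *
      (((n : ℝ) + m + 2) ^ (n + m + 2) / (((n : ℝ) + 1) ^ (n + 1) * ((m : ℝ) + 1) ^ (m + 1)))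
    with hc
  set sn : ℝ := ((n : ℝ) + 1) ^ (n + 1) / (n.factorial : ℝ) ^ 2 with hsn
  set sm : ℝ := ((m : ℝ) + 1) ^ (m + 1) / (m.factorial : ℝ) ^ 2 with hsm
  have hcpos : 0 < c := by rw [hc]; positivity
  have hsnpos : 0 < sn := by rw [hsn]; positivity
  have hsmpos : 0 < sm := by rw [hsm]; positivity
  have hid : c * (sn * sm) = ((n : ℝ) + m + 2) ^ (n + m + 2) / ((n + m + 1).factorial : ℝ) ^ 2 := by
    rw [hc, hsn, hsm]
    have h3 : ((n.factorial : ℕ) : ℝ) ≠ 0 := by positivity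
    have h4 : ((m.factorial : ℕ) : ℝ) ≠ 0 := by positivity
    have h5 : (((n + m + 1).factorial : ℕ) : ℝ) ≠ 0 := by positivity
    field_simp
  rw [← hid, hmain]
  have hPK0 : 0 < PK := lt_of_lt_of_le hsnpos h1
  have hPL0 : 0 < PL := lt_of_lt_of_le hsmpos h2
  have hprod : sn * sm ≤ PK * PL := mul_le_mul h1 h2 hsmpos.le hPK0.le
  refine ⟨mul_le_mul_of_nonneg_left hprod hcpos.le, ?_⟩
  constructor
  · intro he
    have he' : PK * PL = sn * sm := mul_left_cancel₀ hcpos.ne' he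
    have hK' : PK = sn := by
      by_contra hne
      have hlt : sn < PK := lt_of_le_of_ne h1 (Ne.symm hne)
      have : sn * sm < PK * PL := by
        calc sn * sm < PK * sm := mul_lt_mul_of_pos_right hlt hsmpos
          _ ≤ PK * PL := mul_le_mul_of_nonneg_left h2 hPK0.le
      linarith
    refine ⟨hK', ?_⟩
    rw [hK'] at he'
    exact mul_left_cancel₀ hsnpos.ne' he'
  · rintro ⟨e1, e2⟩
    rw [e1, e2]

end Vale.Agent.Results.P248.JoinFormula
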