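import Vale.Agent.Results.P248.PyramidReduction

/-!
P248 (Mahler conjectures on the volume product), plain form: the volume product
`P(K) = inf over interior points w of |K| |(K - w)°|` of the pyramid with base `M × {0}` and apex
`(0, 1)` is `(n+2)^(n+2) / (n+1)^(n+3)` times the volume product of its base `M ⊆ ℝ^n`.
All definitions are written out in the statement.

Same mathematics as the hand-in `PyramidReduction` (its first part).
-/

namespace Vale.Agent.Results.P248.PyramidPlain

open MeasureTheory Vale.Agent.Helper22

theorem result :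
    ∀ (n : ℕ) (M : Set (Fin n → ℝ)),
      MeasurableSet M → Bornology.IsBounded M → (interior M).Nonempty →
      ∀ T : Set (Fin n ⊕ Unit → ℝ),
        T = {z | 0 ≤ z (Sum.inr ()) ∧ z (Sum.inr ()) ≤ 1 ∧
          ∃ y ∈ M, ∀ i, z (Sum.inl i) = (1 - z (Sum.inr ())) * y i} →
      sInf ((fun w => (volume T).toReal *
          (volume {y : Fin n ⊕ Unit → ℝ | ∀ x ∈ T, ∑ i, y i * (x i - w i) ≤ 1}).toReal) ''
            interior T) =
        ((n : ℝ) + 2) ^ (n + 2) / ((n : ℝ) + 1) ^ (n + 3) *
          sInf ((fun w => (volume M).toReal *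
            (volume {y : Fin n → ℝ | ∀ x ∈ M, ∑ i, y i * (x i - w i) ≤ 1}).toReal) ''
              interior M) := by
  intro n M hM hb hne T hT
  have h := (Vale.Agent.Results.P248.PyramidReduction.result (Fin n) M hM hb hne).1
  rw [Fintype.card_fin] at h
  subst hT
  exact h

end Vale.Agent.Results.P248.PyramidPlain
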