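import Vale.Agent.Helper22.Mahler

/-!
P248 (Mahler conjectures on the volume product): the volume product
`P(K) = inf over interior points z of |K| |(K - z)°|` of a pyramid is a universal multiple of the
volume product of its base.  Hence the general Mahler inequality (Q2) for a pyramid in dimension
`n + 1` is equivalent to the inequality for its base in dimension `n`, equality included.
-/

namespace Vale.Agent.Results.P248.PyramidReduction

open MeasureTheory Vale.Agent.Helper22

theorem result (ι : Type*) [Fintype ι] (M : Set (ι → ℝ))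
    (hM : MeasurableSet M) (hb : Bornology.IsBounded M) (hne : (interior M).Nonempty) :
    volProd (pyr M) =
        ((Fintype.card ι : ℝ) + 2) ^ (Fintype.card ι + 2) /
          ((Fintype.card ι : ℝ) + 1) ^ (Fintype.card ι + 3) * volProd M ∧
      (((Fintype.card ι : ℝ) + 1) ^ (Fintype.card ι + 1) /
            ((Fintype.card ι).factorial : ℝ) ^ 2 ≤ volProd M ↔
        ((Fintype.card ι : ℝ) + 2) ^ (Fintype.card ι + 2) /
            ((Fintype.card ι + 1).factorial : ℝ) ^ 2 ≤ volProd (pyr M)) ∧
      (volProd M = ((Fintype.card ι : ℝ) + 1) ^ (Fintype.card ι + 1) /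
            ((Fintype.card ι).factorial : ℝ) ^ 2 ↔
        volProd (pyr M) = ((Fintype.card ι : ℝ) + 2) ^ (Fintype.card ι + 2) /
            ((Fintype.card ι + 1).factorial : ℝ) ^ 2) := by
  have h1 : volProd (pyr M) = pyrMahlerConst (Fintype.card ι) * volProd M :=
    volProd_pyr hM hb hne
  have hc := pyrMahlerConst_pos (Fintype.card ι)
  set n := Fintype.card ι with hn
  have hfac : (0:ℝ) < (n.factorial : ℝ) := by exact_mod_cast n.factorial_pos
  have hn1 : (0:ℝ) < (n : ℝ) + 1 := by positivity
  have h2 : ((n : ℝ) + 2) ^ (n + 2) / ((n + 1).factorial : ℝ) ^ 2 =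
      pyrMahlerConst n * (((n : ℝ) + 1) ^ (n + 1) / (n.factorial : ℝ) ^ 2) := by
    unfold pyrMahlerConst
    rw [Nat.factorial_succ]
    push_cast
    field_simp
    ring
  refine ⟨h1, ?_, ?_⟩
  · rw [h1, h2]
    exact (mul_le_mul_iff_right₀ hc).symm
  · rw [h1, h2]
    constructor
    · intro h; rw [h]
    · intro h; exact mul_left_cancel₀ hc.ne' h

end Vale.Agent.Results.P248.PyramidReduction
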